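import Vale.Agent.P091.Bdl.B1

open MeasureTheory AddCircle

/-- Part 1: everywhere divergence in `φ(L)` for `φ(u) = o(u √(log u))`. Part 2: the same when the
bound holds only along a sequence. Part 3: every Orlicz class of convergence lies inside
`L (log L)^(1/2)`. Part 4: the weak type `(p, p)` constants of the Carleson maximal operator are
at least `c (p - 1)^(-1/2)`. -/
theorem Vale.Agent.Results.P091.DivergenceSqrtLog.result {T : ℝ} [Fact (0 < T)] :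
    (∀ φ : ℝ → ℝ, (∀ u, 0 ≤ u → 0 ≤ φ u) → MonotoneOn φ (Set.Ici 0) →
      Filter.Tendsto (fun u => φ u / (u * Real.sqrt (Real.log u))) Filter.atTop (nhds 0) →
      ∃ f : AddCircle T → ℂ, Integrable f haarAddCircle ∧
        Integrable (fun x => φ ‖f x‖) haarAddCircle ∧
        ∀ x : AddCircle T, ¬ BddAbove (Set.range fun N : ℕ =>
          ‖∑ k ∈ Finset.Icc (-(N : ℤ)) (N : ℤ), fourierCoeff f k * fourier k x‖)) ∧
    (∀ φ : ℝ → ℝ, (∀ u, 0 ≤ u → 0 ≤ φ u) → MonotoneOn φ (Set.Ici 0) →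
      (∀ η : ℝ, 0 < η → ∀ V₀ : ℝ, ∃ V : ℝ, V₀ ≤ V ∧
        ∀ u, 1 ≤ u → u ≤ V → φ u ≤ η * (u * Real.sqrt (Real.log V))) →
      ∃ f : AddCircle T → ℂ, Integrable f haarAddCircle ∧
        Integrable (fun x => φ ‖f x‖) haarAddCircle ∧
        ∀ x : AddCircle T, ¬ BddAbove (Set.range fun N : ℕ =>
          ‖∑ k ∈ Finset.Icc (-(N : ℤ)) (N : ℤ), fourierCoeff f k * fourier k x‖)) ∧
    (∀ φ : ℝ → ℝ, (∀ u, 0 ≤ u → 0 ≤ φ u) → MonotoneOn φ (Set.Ici 0) →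
      MonotoneOn (fun u => φ u / u) (Set.Ioi 0) →
      (∀ f : AddCircle T → ℂ, Integrable f haarAddCircle →
        Integrable (fun x => φ ‖f x‖) haarAddCircle →
        ∃ x : AddCircle T, BddAbove (Set.range fun N : ℕ =>
          ‖∑ k ∈ Finset.Icc (-(N : ℤ)) (N : ℤ), fourierCoeff f k * fourier k x‖)) →
      ∃ c : ℝ, 0 < c ∧ ∀ᶠ u in Filter.atTop, c * (u * Real.sqrt (Real.log u)) ≤ φ u) ∧
    (∃ c : ℝ, 0 < c ∧ ∀ p : ℝ, 1 < p → p ≤ 2 → ∀ C : ℝ, 0 ≤ C →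
      (∀ f : AddCircle T → ℂ, Continuous f → ∀ t : ℝ, 0 < t →
        t ^ p * (haarAddCircle {x : AddCircle T | ∃ N : ℕ,
          t < ‖∑ k ∈ Finset.Icc (-(N : ℤ)) (N : ℤ), fourierCoeff f k * fourier k x‖}).toReal ≤
        C ^ p * ∫ x, ‖f x‖ ^ p ∂haarAddCircle) →
      c / Real.sqrt (p - 1) ≤ C) :=
  ⟨Vale.Agent.P091.divergence_little_o, Vale.Agent.P091.divergence_liminf,
    Vale.Agent.P091.orlicz_converse, Vale.Agent.P091.weak_type_lower⟩
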